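import Vale.Agent.P354RI.Defs

/-!
The period of a form along a loop in the fibre.
-/

open scoped ContDiff
open Set Filter Topology

noncomputable section

namespace Vale.Agent.P354PQ

open Vale.Agent.P354XG hiding Dom Dom0 Bd bdSub domI Keeps Low dom0_mk dom0_zero dom0_cst dom_of
  dom_zero dom_cst bd_alg dom_sum dom0_sum keeps_pd keeps_zero keeps_sum bd_closure dom_pb_aff
  bd_fn bd_par Conn gron gron0 dom_of_sys dom_sub_ev0
open Vale.Agent.P354MG Vale.Agent.P354XD Vale.Agent.P354XR Vale.Agent.P354RI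
open Complex (I exp)

theorem lin_z (T : E6 →L[ℝ] ℂ) (w : E6) :
    T w = ∑ i, zc i w * (d1 i * T (v1 i) + d2 i * T (v2 i)) := by
  obtain ⟨t, r, x, y⟩ := w
  have e : ((t, r, x, y) : E6) = t • (1, 0, 0, 0) + r • (0, 1, 0, 0) + x.re • (0, 0, 1, 0) +
      x.im • (0, 0, I, 0) + y.re • (0, 0, 0, 1) + y.im • (0, 0, 0, I) := by
    simp
  have hx : ∀ z : ℂ, starRingEnd ℂ z = z.re - z.im * I := fun z => by simp [Complex.ext_iff]
  conv_lhs => rw [e]
  simp only [map_add, map_smul, Complex.real_smul, Fin.sum_univ_six, zc, P354XD.d1, P354XD.d2,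
    P354XD.v1, P354XD.v2]
  simp only [Matrix.cons_val, ContinuousLinearMap.comp_apply, ContinuousLinearMap.coe_fst',
    ContinuousLinearMap.coe_snd', Complex.ofRealCLM_apply, ContinuousLinearEquiv.coe_coe,
    Complex.conjCLE_apply, hx]
  have ex := Complex.re_add_im x
  have ey := Complex.re_add_im y
  linear_combination (T (0, 0, 1, 0) / 2 - I / 2 * T (0, 0, I, 0)) * ex +
    (T (0, 0, 0, 1) / 2 - I / 2 * T (0, 0, 0, I)) * ey +
    (x.im * T (0, 0, I, 0) + y.im * T (0, 0, 0, I)) * Complex.I_mul_I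

section gen
variable {J E E' : Type} [NormedAddCommGroup E] [NormedSpace ℝ E] [NormedAddCommGroup E']
  [NormedSpace ℝ E'] {F : Filter J} {K : J → Set E} {K' : J → Set E'}

theorem rs_pb' {X : J × E' → E} (h : Mp F K' K X) {a : Sm (nb F K)} {f : J × E → ℂ} (e : Rs a f) :
    Rs (h.pb a) fun p => f (p.1, X p) := (h.rep_pb a).trans (h.ev e)

theorem rs_pd_pb {X : J × E' → E} (h : Mp F K' K X) {a : Sm (nb F K)} {f : J × E → ℂ}
    (e : Rs a f) (v : E') : Rs (pd v (h.pb a)) fun p =>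
      fderiv ℝ (sl f p.1) (X p) (fderiv ℝ (fun y => X (p.1, y)) p.2 v) := by
  refine ((rs_pb' h e).pd v).congr ?_
  filter_upwards [h.sm, h.ev e.sm.diff] with p h2 h3
  have : fderiv ℝ (sl (fun p => f (p.1, X p)) p.1) p.2 = _ :=
    (HasFDerivAt.comp (g := sl f p.1) p.2 h3.hasFDerivAt
      (h2.differentiableAt (by simp)).hasFDerivAt).fderiv
  rw [pdF, this]
  rfl

theorem rs_cst {G : Filter (J × E)} [Loc G] (c : J → ℂ) : Rs (cst c : Sm G) fun p => c p.1 :=
  rs_mk (smF_const c)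

theorem cst_congr {c c' : J → ℂ} (h : c =ᶠ[F] c') : (cst c : Sm (nb F K)) = cst c' :=
  (rs_cst c).ext (rs_cst c') (ev_nb.2 (h.mono fun _ h _ _ => Eventually.of_forall fun _ => h))

theorem rs_lev0 {a : Sm (nb F (cyl K))} {f : J × ℝ × E → ℂ} (e : Rs a f) :
    Rs (lev0 a) fun p => f (p.1, 0, p.2) :=
  (rs_pb' (mp_lev (left_mem_Icc.2 zero_le_one)) e).congr
    (Eventually.of_forall fun p => by simp [aff])

theorem rs_lev1 {a : Sm (nb F (cyl K))} {f : J × ℝ × E → ℂ} (e : Rs a f) :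
    Rs (lev1 a) fun p => f (p.1, 1, p.2) :=
  (rs_pb' (mp_lev (right_mem_Icc.2 zero_le_one)) e).congr
    (Eventually.of_forall fun p => by simp [aff])

theorem rs_int [FiniteDimensional ℝ E] {a : Sm (nb F (cyl K))} {f : J × ℝ × E → ℂ} (e : Rs a f) :
    Rs (int a) (intF f) := (rep_mk _ (rep_sm a).int).trans (intF_congr e)

theorem rs_d {G : Filter (J × E6)} [Loc G] {a : Sm G} {f : J × E6 → ℂ} (e : Rs a f) (i : Fin 6) :
    Rs ((hp G).d i a) fun p =>
      d1 i * fderiv ℝ (sl f p.1) p.2 (v1 i) + d2 i * fderiv ℝ (sl f p.1) p.2 (v2 i) := by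
  rw [hp_d]
  exact ((rs_alg _).mul (e.pd _)).add ((rs_alg _).mul (e.pd _))

theorem rs_pd_z {K : J → Set E6} {X : J × E' → E6} (h : Mp F K' K X) (v : E') (i : Fin 6) :
    Rs (pd v (h.pb ((hp _).z i))) fun p => zc i (fderiv ℝ (fun y => X (p.1, y)) p.2 v) :=
  (rs_pd_pb h (rs_z i) v).congr (Eventually.of_forall fun p => by
    have : sl (fun p : J × E6 => zc i p.2) p.1 = zc i := rfl
    simp only [this, ContinuousLinearMap.fderiv])

/-- The chain rule in the complex coordinates. -/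
theorem chain {K : J → Set E6} {X : J × E' → E6} (h : Mp F K' K X) (v : E') (a : Sm (nb F K)) :
    pd v (h.pb a) = ∑ i, pd v (h.pb ((hp _).z i)) * h.pb ((hp _).d i a) :=
  (rs_pd_pb h (rs_rep a) v).ext
    (Rs.sum _ fun i => (rs_pd_z h v i).mul (rs_pb' h (rs_d (rs_rep a) i)))
    (Eventually.of_forall fun _ => lin_z _ _)

end gen

variable {J : Type} {F : Filter J} {s : Sl J} {S : Set (ℂ × ℂ)} {μ : ℕ → J → ℝ}

/-- The point of the base fibre. -/
def bp (s : Sl J) (j : J) (w : ℂ × ℂ) : E6 := (s.tt j, s.R1, w)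

theorem bp_mem (o : s.Ok F) : ∀ᶠ j in F, ∀ (S : Set (ℂ × ℂ)), ∀ w ∈ S, bp s j w ∈ s.K S j := by
  obtain ⟨_, _, -, o⟩ := o
  exact o.mono fun j h S w hw => ⟨rfl, h.1, hw⟩

/-- A homotopy of loops. -/
def Xg (s : Sl J) (g : ℝ × ℝ → ℂ × ℂ) (p : J × ℝ × ℝ × E6) : E6 := bp s p.1 (g (p.2.1, p.2.2.1))

/-- The projection to the two parameters, and the inclusion of the fibre. -/
def pr : ℝ × ℝ × E6 →L[ℝ] ℝ × ℝ :=
  (ContinuousLinearMap.fst ℝ ℝ _).prod ((ContinuousLinearMap.fst ℝ ℝ _).comp (.snd ℝ ℝ _))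
def ic : ℂ × ℂ →L[ℝ] E6 := (ContinuousLinearMap.inr ℝ ℝ _).comp (.inr ℝ ℝ _)

theorem Xg_eq (g : ℝ × ℝ → ℂ × ℂ) (j : J) :
    (fun y => Xg s g (j, y)) = fun y => (s.tt j, s.R1, 0) + ic (g (pr y)) := by
  funext y
  simp [Xg, bp, ic, pr]

theorem fd_Xg {g : ℝ × ℝ → ℂ × ℂ} (hg : ContDiff ℝ ∞ g) (j : J) (y v : ℝ × ℝ × E6) :
    fderiv ℝ (fun y => Xg s g (j, y)) y v = ic (fderiv ℝ g (pr y) (pr v)) := by
  have := (ic.hasFDerivAt.comp y (((hg.differentiable (by simp)) (pr y)).hasFDerivAt.comp y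
    pr.hasFDerivAt)).const_add ((s.tt j, s.R1, 0) : E6)
  rw [Xg_eq]
  exact DFunLike.congr_fun (HasFDerivAt.fderiv this) v

theorem mp_g (o : s.Ok F) {g : ℝ × ℝ → ℂ × ℂ} (hg : ContDiff ℝ ∞ g)
    (hS : ∀ a ∈ Icc (0 : ℝ) 1, ∀ b, g (a, b) ∈ S) :
    Mp F (cyl (cyl (s.K SA))) (s.K S) (Xg s g) := by
  refine ⟨Eventually.of_forall fun p => ?_, (bp_mem o).mono fun j h x hx => h _ _ (hS _ hx.1 _)⟩
  rw [Xg_eq]
  exact (contDiff_const.add (ic.contDiff.comp (hg.comp pr.contDiff))).contDiffAt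

/-- The integral of the form along a loop of the homotopy. -/
def lp (g : ℝ × ℝ → ℂ × ℂ) (σ : ℝ) (α : Fin 6 → s.R F S) (j : J) : ℂ :=
  ∫ u in (0 : ℝ)..1, ∑ i, zc i (ic (fderiv ℝ g (σ, u) (0, 1))) * rep (α i) (j, bp s j (g (σ, u)))

/-- Homotopy invariance up to μ. -/
theorem hom [Gr F] (o : s.Ok F) (hμ : Wgt μ) {g : ℝ × ℝ → ℂ × ℂ} (hg : ContDiff ℝ ∞ g)
    (hS : ∀ a ∈ Icc (0 : ℝ) 1, ∀ b, g (a, b) ∈ S) (hper : ∀ a b, g (a, b + 1) = g (a, b))
    {α : Fin 6 → s.R F S} (hα : Cl μ α) :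
    Dom0 μ (cst (lp g 1 α) - cst (lp g 0 α) : s.R F SA) := by
  have h := mp_g o hg hS
  have rz : ∀ v i, Rs (pd v (h.pb ((hp _).z i))) fun p => zc i (ic (fderiv ℝ g (pr p.2) (pr v))) :=
    fun v i => (rs_pd_z h v i).congr (Eventually.of_forall fun p => by
      simp only [fd_Xg hg])
  have bz : ∀ v i, Dom0 (w1 J) (pd v (h.pb ((hp _).z i))) := fun v i => by
    have hc : Continuous fun q => zc i (ic (fderiv ℝ g q (pr v))) :=
      (zc i).continuous.comp (ic.continuous.comp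
        ((hg.continuous_fderiv (by simp)).clm_apply continuous_const))
    obtain ⟨C, hC⟩ := ((isCompact_Icc (a := (0 : ℝ)) (b := 1)).prod
      (isCompact_Icc (a := (0 : ℝ)) (b := 1))).exists_bound_of_continuousOn hc.continuousOn
    refine dom0_of wgt_one (rz v i) 0 fun θ => ⟨max C 0, le_max_right _ _,
      Eventually.of_forall fun j x hx => ?_⟩
    rw [w1, mul_one]
    exact (hC (pr x) ⟨hx.1, hx.2.1⟩).trans (le_max_left _ _)
  let A : ℝ × ℝ × E6 → Sm (nb F (cyl (cyl (s.K SA)))) := fun v =>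
    ∑ i, pd v (h.pb ((hp _).z i)) * h.pb (α i)
  have rA : ∀ v, Rs (A v) fun p => ∑ i, zc i (ic (fderiv ℝ g (pr p.2) (pr v))) *
      rep (α i) (p.1, Xg s g p) := fun v =>
    Rs.sum _ fun i => (rz v i).mul (rs_pb' h (rs_rep _))
  have key : ∀ v w, pd v (A w) - pd w (A v) = ∑ i, ∑ k, pd w (h.pb ((hp _).z i)) *
      (pd v (h.pb ((hp _).z k)) * h.pb ((hp _).d k (α i) - (hp _).d i (α k))) := by
    intro v w
    simp only [A, map_sum, D_mul, chain h _ (α _), map_sub, mul_sub, Finset.sum_sub_distrib,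
      Finset.sum_add_distrib, Finset.mul_sum, pd_comm v w]
    rw [Finset.sum_comm (f := fun i k => pd w (h.pb ((hp _).z i)) *
      (pd v (h.pb ((hp _).z k)) * h.pb ((hp _).d i (α k))))]
    simp only [mul_left_comm (pd w _)]
    ring
  have hE : Dom0 μ (int (int (pd (1, 0) (A (0, 1, 0)) - pd (0, 1, 0) (A (1, 0))))) := by
    refine Dom0.int hμ (Dom0.int hμ ?_)
    rw [key]
    exact dom0_sum hμ _ fun i _ => dom0_sum hμ _ fun k _ =>
      Dom0.bmul hμ (bz _ i) (Dom0.bmul hμ (bz _ k) ((hα k i).dom0.pb h))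
  have e1 : int (lev1 (A (0, 1, 0))) = cst (lp g 1 α) :=
    (rs_int (rs_lev1 (rA _))).ext (rs_cst _) (Eventually.of_forall fun p => rfl)
  have e0 : int (lev0 (A (0, 1, 0))) = cst (lp g 0 α) :=
    (rs_int (rs_lev0 (rA _))).ext (rs_cst _) (Eventually.of_forall fun p => rfl)
  have e2 : lev1 (int (A (1, 0))) = lev0 (int (A (1, 0))) := by
    refine (rs_lev1 (rs_int (rA _))).ext (rs_lev0 (rs_int (rA _))) (Eventually.of_forall fun p => ?_)
    refine intervalIntegral.integral_congr fun t _ => ?_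
    have g1 : g (t, 1) = g (t, 0) := by simpa using hper t 0
    have g2 : fderiv ℝ g (t, 1) = fderiv ℝ g (t, 0) := by
      have : g = fun q => g (q + (0, 1)) := funext fun q => by
        rw [← hper q.1 q.2]
        congr 1
        ext <;> simp
      conv_rhs => rw [this, fderiv_comp_add_right]
      simp
    simp only [Xg, pr, ContinuousLinearMap.prod_apply, ContinuousLinearMap.comp_apply,
      ContinuousLinearMap.coe_fst', ContinuousLinearMap.coe_snd', g1, g2]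
  rw [int_sub, int_sub, int_pd, ← pd_int, int_pd, int_sub, e1, e0, e2, sub_self, sub_zero] at hE
  exact hE

/-- The loop. -/
def ex (u : ℝ) : ℂ := exp (2 * Real.pi * I * u)

theorem norm_ex (u : ℝ) : ‖ex u‖ = 1 := by
  rw [ex, show 2 * Real.pi * I * u = ((2 * Real.pi * u : ℝ) : ℂ) * I by push_cast; ring,
    Complex.norm_exp_ofReal_mul_I]

theorem ex_per (u : ℝ) : ex (u + 1) = ex u := by
  rw [ex, ex, Complex.ofReal_add, mul_add, Complex.exp_add]
  simp [Complex.exp_two_pi_mul_I]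

theorem cd_ex : ContDiff ℝ ∞ ex :=
  (contDiff_const.mul Complex.ofRealCLM.contDiff).cexp

theorem d_lin (c : ℂ) (u : ℝ) : HasDerivAt (fun u : ℝ => c * u) c u := by
  simpa using (hasDerivAt_id u).ofReal_comp.const_mul c

theorem d_ex (u : ℝ) : HasDerivAt ex (2 * Real.pi * I * ex u) u :=
  ((d_lin _ u).cexp).congr_deriv (mul_comm _ _)

theorem ex_ann (u : ℝ) : ex u ∈ Ann := by
  rw [Ann, mem_ofPred_eq, norm_ex]
  norm_num

theorem fd_line {g : ℝ × ℝ → ℂ × ℂ} (hg : ContDiff ℝ ∞ g) {σ u : ℝ} {w : ℂ × ℂ}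
    (h : HasDerivAt (fun u => g (σ, u)) w u) : fderiv ℝ g (σ, u) (0, 1) = w :=
  (HasFDerivAt.comp_hasDerivAt (l := g) u ((hg.differentiable (by simp)) _).hasFDerivAt
    ((hasDerivAt_const u σ).prodMk (hasDerivAt_id u))).unique h

/-- The integral of a function along the loop (ex u, y). -/
def iv (b : s.R F S) (y : ℂ) (j : J) : ℂ := ∫ u in (0 : ℝ)..1, rep b (j, bp s j (ex u, y))

theorem cd_bp (j : J) (y : ℂ) : ContDiff ℝ ∞ fun u => bp s j (ex u, y) :=
  contDiff_const.prodMk (contDiff_const.prodMk (cd_ex.prodMk contDiff_const))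

theorem iv_sm (o : s.Ok F) {y : ℂ} (hy : ∀ u, (ex u, y) ∈ S) (b : s.R F S) :
    ∀ᶠ j in F, ContDiff ℝ ∞ fun u => rep b (j, bp s j (ex u, y)) := by
  filter_upwards [bp_mem o, ev_nb_on (rep_sm b)] with j h1 h2
  exact contDiff_iff_contDiffAt.2 fun u =>
    ContDiffAt.comp (g := sl (rep b) j) u (h2 _ (h1 _ _ (hy u))) (cd_bp j y).contDiffAt

theorem iv_rs (o : s.Ok F) {y : ℂ} (hy : ∀ u, (ex u, y) ∈ S) {b : s.R F S} {f : J × E6 → ℂ}
    (e : Rs b f) : ∀ᶠ j in F, ∀ u, rep b (j, bp s j (ex u, y)) = f (j, bp s j (ex u, y)) := by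
  filter_upwards [bp_mem o, ev_nb_on e] with j h1 h2 u using h2 _ (h1 _ _ (hy u))

theorem iv_dom [Gr F] (o : s.Ok F) {y : ℂ} (hy : ∀ u, (ex u, y) ∈ S) {b : s.R F S}
    (h : Dom0 μ b) : Dom0 μ (cst (iv b y) : s.R F SA) := by
  filter_upwards [h, evk (bp_mem o), evk (ev_nb_on (rs_cst (G := s.G F SA) (iv b y)))]
    with k h1 h2 h3 θ
  obtain ⟨C, hC, h1⟩ := h1 θ
  refine ⟨C, hC, ?_⟩
  filter_upwards [h1, h2 θ, h3 θ] with j h1 h2 h3 x hx
  rw [h3 x hx]
  have := intervalIntegral.norm_integral_le_of_norm_le_const (a := 0) (b := 1)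
    (f := fun u => rep b (j, bp s j (ex u, y))) (C := C * μ k j) fun u _ => h1 _ (h2 _ _ (hy u))
  simpa [iv] using this

/-- The integrand. -/
def be (α : Fin 6 → s.R F S) : s.R F S := (hp _).z 2 * α 2 - (hp _).z 4 * α 4

theorem rs_be (α : Fin 6 → s.R F S) :
    Rs (be α) fun p => zc 2 p.2 * rep (α 2) p - zc 4 p.2 * rep (α 4) p :=
  ((rs_z 2).mul (rs_rep _)).sub ((rs_z 4).mul (rs_rep _))

theorem lp_eq (o : s.Ok F) {y : ℂ} (hy : ∀ u, (ex u, y) ∈ S) {g : ℝ × ℝ → ℂ × ℂ}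
    (hg : ContDiff ℝ ∞ g) {σ : ℝ} (e : ∀ u, g (σ, u) = (ex u, y)) (α : Fin 6 → s.R F S) :
    (cst (lp g σ α) : s.R F SA) = algebraMap ℂ _ (2 * Real.pi * I) * cst (iv (be α) y) := by
  refine (rs_cst _).ext ((rs_alg _).mul (rs_cst _)) (ev_nb.2 ?_)
  filter_upwards [iv_rs o hy (rs_be α)] with j h x _
  refine Eventually.of_forall fun _ => ?_
  simp only [lp, iv, h, ← intervalIntegral.integral_const_mul]
  refine intervalIntegral.integral_congr fun u _ => ?_
  have : fderiv ℝ g (σ, u) (0, 1) = (2 * Real.pi * I * ex u, 0) := fd_line hg (by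
    simp only [e]
    exact (d_ex u).prodMk (hasDerivAt_const u y))
  simp [this, e, Fin.sum_univ_six, zc, ic, bp, map_ofNat]
  ring

theorem tpi : (2 * Real.pi * I : ℂ) ≠ 0 := Complex.two_pi_I_ne_zero

theorem dom_unit [Gr F] (hμ : Wgt μ) {a : s.R F SA}
    (h : Dom0 μ (algebraMap ℂ _ (2 * Real.pi * I) * a)) : Dom0 μ a := by
  have := Dom0.bmul hμ (bd_alg (2 * Real.pi * I)⁻¹).dom0 h
  rwa [← mul_assoc, ← map_mul, inv_mul_cancel₀ tpi, map_one, one_mul] at this

theorem cst_sub {G : Filter (J × E6)} [Loc G] (c c' : J → ℂ) :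
    (cst c - cst c' : Sm G) = cst (c - c') :=
  ((rs_cst c).sub (rs_cst c')).ext (rs_cst _) (Eventually.of_forall fun _ => rfl)

theorem so1 (u : ℝ) : (ex u, (1 : ℂ)) ∈ SO := ⟨ex_ann u, one_so.2⟩

theorem iv_res (o : s.Ok F) (h : SO ⊆ S) (α : Fin 6 → s.R F S) :
    (cst (iv (be fun i => s.rs F h (α i)) 1) : s.R F SA) = cst (iv (be α) 1) := by
  refine cst_congr ?_
  filter_upwards [iv_rs o so1 (rs_be fun i => s.rs F h (α i)),
    iv_rs o (fun u => h (so1 u)) (rs_be α), iv_rs o so1 (rep_res (s.sub F h) (α 2)),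
    iv_rs o so1 (rep_res (s.sub F h) (α 4))] with j h1 h2 h3 h4
  simp only [iv, h1, h2]
  exact intervalIntegral.integral_congr fun u _ => by
    simp only [← h3, ← h4]
    rfl

/-- The winding number. -/
theorem wind {U : ℝ → ℂ} (hU : ContDiff ℝ ∞ U) (c : ℂ) (h : ∀ u, ‖U u * exp (-c * u) - 1‖ < 1)
    (h1 : U 1 * exp (-c * (1 : ℝ)) = U 0 * exp (-c * (0 : ℝ))) :
    ∫ u in (0 : ℝ)..1, (U u)⁻¹ * deriv U u = c := by
  have h0 : ∀ u, U u ≠ 0 := fun u e => by simpa [e] using h u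
  have := intervalIntegral.integral_eq_sub_of_hasDerivAt (a := 0) (b := 1)
    (f := fun u => c * u + Complex.log (U u * exp (-c * u)))
    (f' := fun u => (U u)⁻¹ * deriv U u) (fun u _ => ?_)
    (((hU.continuous.inv₀ h0).mul (hU.continuous_deriv (by simp))).intervalIntegrable 0 1)
  · rw [this, h1]
    simp
  · refine ((d_lin c u).add (((hU.differentiable (by simp) u).hasDerivAt.mul
      (d_lin (-c) u).cexp).clog_real (by
        simpa using Complex.mem_slitPlane_of_norm_lt_one (h u)))).congr_deriv ?_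
    have := h0 u
    have := Complex.exp_ne_zero (-c * u)
    simp only [Pi.mul_apply]
    field_simp
    ring

theorem off (o : s.Ok F) : Off (s.G F SO) := by
  obtain ⟨ra, rb, h0, o⟩ := o
  refine ev_nb.2 (o.mono fun j h x hx => ?_)
  have h1 : x.2.1 ≠ 0 := (h0.trans_le (h.2.1 hx.2.1).1).ne'
  have h2 : x.2.2 ≠ 0 := sa_ne (so_sa hx.2.2)
  exact ((continuous_snd.fst.continuousAt.eventually_ne h1).and
    (continuous_snd.snd.continuousAt.eventually_ne h2))

theorem wind' [Gr F] (o : s.Ok F) {ν : ℕ → J → ℝ} (hν : Sml F ν) {u v w : s.R F SO}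
    (e : u * v = 1) {f : J × E6 → ℂ} (hw : Rs w f) (σ : ℂ) (hσ : σ = 1 ∨ σ = -1)
    (hf : ∀ j t, f (j, bp s j (ex t, 1)) = exp (2 * Real.pi * I * σ * t)) (h : Dom ν (u - w)) :
    (cst (iv (be fun i => v * (hp _).d i u) 1) : s.R F SA) = algebraMap ℂ _ σ := by
  refine cst_congr (c' := fun _ => σ) ?_
  have rv := (rs_rep u).of_mul e
  filter_upwards [iv_sm o so1 u, iv_rs o so1 (((rs_z 2).mul (rv.mul (rs_d (rs_rep u) 2))).sub
    ((rs_z 4).mul (rv.mul (rs_d (rs_rep u) 4)))), h.ev_lt hν 1 one_pos, bp_mem o,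
    iv_rs o so1 ((rs_rep u).sub hw), ev_nb_on (rep_sm u).diff] with j h1 h2 h3 h4 h5 h6
  have hn : ∀ t : ℝ, ‖exp (-(2 * Real.pi * I * σ) * t)‖ = 1 := fun t => by
    rcases hσ with rfl | rfl
    · rw [← norm_ex (-t), ex]
      congr 2
      push_cast
      ring
    · rw [← norm_ex t, ex]
      congr 2
      ring
  have h7 := wind h1 (2 * Real.pi * I * σ) (fun t => ?_) ?_
  · refine mul_left_cancel₀ tpi ?_
    rw [← h7, iv, ← intervalIntegral.integral_const_mul]
    refine intervalIntegral.integral_congr fun t _ => ?_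
    have h8 : HasDerivAt (fun t => bp s j (ex t, 1)) (0, 0, 2 * Real.pi * I * ex t, 0) t :=
      (hasDerivAt_const t _).prodMk ((hasDerivAt_const t _).prodMk
        ((d_ex t).prodMk (hasDerivAt_const t _)))
    have h9 := (HasFDerivAt.comp_hasDerivAt (l := sl (rep u) j) t
      (h6 _ (h4 _ _ (so1 t))).hasFDerivAt h8).deriv
    have h10 : deriv (fun t => rep u (j, bp s j (ex t, 1))) t = _ := h9
    simp only [be, h2, h10]
    rw [lin_z (fderiv ℝ (sl (rep u) j) _) (0, 0, _, 0)]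
    simp [Fin.sum_univ_six, zc, bp, map_ofNat]
    ring
  · have := h3 _ (h4 _ _ (so1 t))
    rw [h5, hf] at this
    rwa [← mul_one ‖_‖, ← hn t, ← norm_mul, sub_mul, ← Complex.exp_add, neg_mul, add_neg_cancel,
      Complex.exp_zero, ← neg_mul, hn] at this
  · have e1 : ex 1 = ex 0 := by simpa using ex_per 0
    rw [e1]
    congr 1
    rcases hσ with rfl | rfl
    · simp [Complex.exp_neg, Complex.exp_two_pi_mul_I]
    · simp [Complex.exp_two_pi_mul_I]

theorem dom0_z [Gr F] (i : Fin 6) (hi : i = 2 ∨ i = 4) : Dom0 (w1 J) ((hp (s.G F SO)).z i) :=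
  dom0_of wgt_one (rs_z i) 0 fun _ => ⟨4, by norm_num, Eventually.of_forall fun j x hx => by
    have := hx.2.2.1.2
    rcases hi with rfl | rfl <;> simpa [zc, w1] using this⟩

theorem per : PER := by
  intro J F _ s o
  have add : ∀ α β : Fin 6 → s.R F SO, (cst (iv (be (α + β)) 1) : s.R F SA) =
      cst (iv (be α) 1) + cst (iv (be β) 1) := by
    intro α β
    have e : be (α + β) = be α + be β := by simp only [be, Pi.add_apply]; ring
    refine (rs_cst _).ext ((rs_cst _).add (rs_cst _)) (ev_nb.2 ?_)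
    filter_upwards [iv_sm o so1 (be α), iv_sm o so1 (be β),
      iv_rs o so1 ((rs_rep (be α)).add (rs_rep (be β)))] with j h1 h2 h3 x _
    refine Eventually.of_forall fun _ => ?_
    simp only [iv, e, h3]
    exact intervalIntegral.integral_add (h1.continuous.intervalIntegrable 0 1)
      (h2.continuous.intervalIntegrable 0 1)
  refine ⟨AddMonoidHom.mk' (fun α => cst (iv (be α) 1)) add, fun c α => ?_, fun μ hμ α h => ?_,
    fun μ hμ α c c' h h1 h2 => ?_, fun μ hμ α h => ?_, fun ν _ hν u v e => ⟨fun h => ?_, fun h => ?_⟩⟩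
  · have e : be ((cst c : s.R F SO) • α) = cst c * be α := by
      simp only [be, Pi.smul_apply, smul_eq_mul]; ring
    refine (rs_cst _).ext ((rs_cst _).mul (rs_cst _)) (ev_nb.2 ?_)
    filter_upwards [iv_rs o so1 ((rs_cst c).mul (rs_rep (be α)))] with j h3 x _
    refine Eventually.of_forall fun _ => ?_
    simp only [iv, e, h3]
    exact intervalIntegral.integral_const_mul _ _
  · exact dom_cst hμ _ (iv_dom o so1 ((Dom0.bmul hμ (dom0_z 2 (.inl rfl)) (h 2).dom0).sub hμ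
      (Dom0.bmul hμ (dom0_z 4 (.inr rfl)) (h 4).dom0)))
  · have hg : ContDiff ℝ ∞ fun q : ℝ × ℝ => (ex q.2, (q.1 : ℂ)) :=
      (cd_ex.comp contDiff_snd).prodMk (Complex.ofRealCLM.contDiff.comp contDiff_fst)
    have n0 : ∀ u, (ex u, (0 : ℂ)) ∈ SN := fun u => ⟨ex_ann u, by simp [Dsc]⟩
    have h3 := hom (S := SN) o hμ hg (fun a ha b => And.intro (ex_ann b) (by
      simp only [Dsc, mem_ofPred_eq, Complex.norm_real, Real.norm_eq_abs, abs_of_nonneg ha.1]
      linarith [ha.2])) (fun a b => by simp only [ex_per]) h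
    rw [lp_eq o (fun u => so_sn (so1 u)) hg (fun u => by simp), lp_eq o n0 hg (fun u => by simp),
      ← mul_sub] at h3
    have h4 := iv_dom o n0 (h1.dom0.sub hμ h2.dom0)
    have h5 := (dom_unit hμ h3).add hμ h4
    show Dom μ (cst _ - _)
    rw [iv_res o so_sn, cst_sub, cst_sub]
    refine dom_cst hμ _ ?_
    rw [cst_sub] at h5
    refine Eq.mp (congrArg _ ?_) h5
    refine ((rs_cst _).add (rs_cst _)).ext (rs_cst _) (ev_nb.2 ?_)
    filter_upwards [iv_sm o n0 (be α), iv_rs o n0 (rs_be α), iv_rs o n0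
      (((((rs_z 2).mul (rs_rep (α 2))).add ((rs_z 3).mul (rs_rep (α 3)))).sub (rs_cst c)).sub
        ((((rs_z 4).mul (rs_rep (α 4))).add ((rs_z 5).mul (rs_rep (α 5)))).sub (rs_cst c')))]
      with j k1 k2 k3 x _
    refine Eventually.of_forall fun _ => ?_
    have k4 : ∀ u, rep ((hp (s.G F SN)).z 2 * α 2 + (hp _).z 3 * α 3 - cst c -
        ((hp _).z 4 * α 4 + (hp _).z 5 * α 5 - cst c')) (j, bp s j (ex u, 0)) =
        rep (be α) (j, bp s j (ex u, 0)) - (c j - c' j) := fun u => by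
      rw [k2, k3]
      simp [zc, bp]
      ring
    simp only [iv, k4, Pi.sub_apply]
    rw [intervalIntegral.integral_sub (k1.continuous.intervalIntegrable 0 1)
      intervalIntegrable_const]
    simp
  · have hg : ContDiff ℝ ∞ fun q : ℝ × ℝ => ((q.1 : ℂ) * ex q.2, (1 : ℂ)) :=
      ((Complex.ofRealCLM.contDiff.comp contDiff_fst).mul (cd_ex.comp contDiff_snd)).prodMk
        contDiff_const
    have h3 := hom (S := SS) o hμ hg (fun a ha b => And.intro (by
      simp only [Dsc, mem_ofPred_eq, norm_mul, norm_ex, Complex.norm_real, Real.norm_eq_abs,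
        abs_of_nonneg ha.1]
      linarith [ha.2]) one_so.2) (fun a b => by simp only [ex_per]) h
    have h4 : (cst (lp (fun q : ℝ × ℝ => ((q.1 : ℂ) * ex q.2, (1 : ℂ))) 0 α) : s.R F SA) = 0 := by
      refine (rs_cst _).ext rs_zero (Eventually.of_forall fun p => ?_)
      have : ∀ u, fderiv ℝ (fun q : ℝ × ℝ => ((q.1 : ℂ) * ex q.2, (1 : ℂ))) (0, u) (0, 1) = 0 :=
        fun u => fd_line hg (by simpa using hasDerivAt_const u ((0 : ℂ), (1 : ℂ)))
      simp [lp, this]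
    rw [lp_eq o (fun u => so_ss (so1 u)) hg (fun u => by simp), h4, sub_zero] at h3
    show Dom μ (cst _)
    rw [iv_res o so_ss]
    exact dom_cst hμ _ (dom_unit hμ h3)
  · refine (wind' o hν e ((((rs_num 2).mul (rs_z 2)).mul (rs_z 3)).mul (rs_Ni (off o))) 1
      (.inl rfl) (fun j t => ?_) h).trans (map_one _)
    have := norm_ex t
    simp [zc, bp, nq, Complex.normSq_eq_norm_sq, this]
    rw [ex]
    ring
  · refine (wind' o hν e ((((rs_num 2).mul (rs_z 4)).mul (rs_z 5)).mul (rs_Ni (off o))) (-1)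
      (.inr rfl) (fun j t => ?_) h).trans (by rw [map_neg, map_one])
    have := norm_ex t
    simp [zc, bp, nq, Complex.normSq_eq_norm_sq, this]
    rw [ex, ← Complex.exp_conj]
    simp [map_ofNat]
    ring

end Vale.Agent.P354PQ
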